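import Vale.Agent.Lib.P043.Main

open Pointwise

/-- Periodic tiling conjecture in `ℤ^d`, every `d`, for tiles `F = F₁ + F₂` that are direct sums
of two finite sets of prime cardinality: if `F` tiles `ℤ^d` by translations then it admits a
periodic tiling. -/
theorem Vale.Agent.Results.P043.A_TwoPrimeSum.result (d : ℕ) (F₁ F₂ : Finset (Fin d → ℤ))
    (hp₁ : F₁.card.Prime) (hp₂ : F₂.card.Prime)
    (hdir : (F₁ + F₂).card = F₁.card * F₂.card)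
    (htile : ∃ A : Set (Fin d → ℤ), ∀ g : Fin d → ℤ,
      ∃! q : (Fin d → ℤ) × (Fin d → ℤ), q.1 ∈ A ∧ q.2 ∈ F₁ + F₂ ∧ q.1 + q.2 = g) :
    ∃ A : Set (Fin d → ℤ),
      (∀ g : Fin d → ℤ,
        ∃! q : (Fin d → ℤ) × (Fin d → ℤ), q.1 ∈ A ∧ q.2 ∈ F₁ + F₂ ∧ q.1 + q.2 = g) ∧
      ∃ H : AddSubgroup (Fin d → ℤ), H.FiniteIndex ∧ ∀ h ∈ H, h +ᵥ A = A :=
  Vale.Agent.Lib.P043.periodic_tiling_int d F₁ F₂ hp₁ hp₂ hdir htile
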