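import Vale.Agent.Lib.P043.Collinear

open Pointwise

/-- Periodic tiling theorem in an arbitrary finitely generated abelian group `G` (for instance
`ℤ^d`, or `ℤ^d × G₀` with `G₀` finite) for tiles `F = F₁ + F₂` that are direct sums of two finite
sets, each of which has prime cardinality or lies in a coset of a cyclic subgroup:
if `F` tiles `G` by translations then it admits a periodic tiling. -/
theorem Vale.Agent.Results.P043.B_PrimeOrLineSumFG.result {G : Type*} [AddCommGroup G]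
    [DecidableEq G] [AddGroup.FG G] (F₁ F₂ : Finset G)
    (h₁ : F₁.card.Prime ∨ ∃ f₀ v : G, ∀ f ∈ F₁, ∃ k : ℤ, f = f₀ + k • v)
    (h₂ : F₂.card.Prime ∨ ∃ f₀ v : G, ∀ f ∈ F₂, ∃ k : ℤ, f = f₀ + k • v)
    (hdir : (F₁ + F₂).card = F₁.card * F₂.card)
    (htile : ∃ A : Set G, ∀ g : G, ∃! q : G × G, q.1 ∈ A ∧ q.2 ∈ F₁ + F₂ ∧ q.1 + q.2 = g) :
    ∃ A : Set G, (∀ g : G, ∃! q : G × G, q.1 ∈ A ∧ q.2 ∈ F₁ + F₂ ∧ q.1 + q.2 = g) ∧
      ∃ H : AddSubgroup G, H.FiniteIndex ∧ ∀ h ∈ H, h +ᵥ A = A :=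
  Vale.Agent.Lib.P043.periodic_tiling_fg F₁ F₂ h₁ h₂ hdir htile
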