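import Vale.Agent.Lib.P043.Structure

open Pointwise

/-- Structure of all tilings: in any abelian group `G`, every tiling `A` by a direct sum
`F = F₁ + F₂` of two finite sets of prime cardinality is invariant under translation by
`(|F₁| |F₂|) • h` for every `h` that lies both in the subgroup generated by `F₁ - F₁` and in the
subgroup generated by `F₂ - F₂`. -/
theorem Vale.Agent.Results.P043.C_TwoPrimeAllTilings.result {G : Type*} [AddCommGroup G]
    [DecidableEq G] (F₁ F₂ : Finset G)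
    (hp₁ : F₁.card.Prime) (hp₂ : F₂.card.Prime)
    (hdir : (F₁ + F₂).card = F₁.card * F₂.card)
    (A : Set G)
    (hA : ∀ g : G, ∃! q : G × G, q.1 ∈ A ∧ q.2 ∈ F₁ + F₂ ∧ q.1 + q.2 = g)
    (h : G)
    (h1 : h ∈ AddSubgroup.closure {x : G | ∃ f ∈ F₁, ∃ f' ∈ F₁, x = f - f'})
    (h2 : h ∈ AddSubgroup.closure {x : G | ∃ f ∈ F₂, ∃ f' ∈ F₂, x = f - f'}) :
    ((F₁.card * F₂.card) • h) +ᵥ A = A :=
  Vale.Agent.Lib.P043.tiling_two_prime_invariant F₁ F₂ hp₁ hp₂ hdir A hA h h1 h2
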